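import Vale.Agent.P272.K.C3.Inst

/-!
# P253W, block FP, row C3: the Bochner formula with torsion
-/

set_option linter.all false

open Matrix Finset

noncomputable section

namespace Vale.Agent.P253W.FP.C3r

open Vale.Agent.P272.K Vale.Agent.P272.K.C3 Vale.Agent.P272.K.P1

variable {n : ℕ} {A : Type*} [CommRing A] [StarRing A]

/-- a Hermitian metric with its inverse -/
structure HS (K G : Mt n A) : Prop where
  KG : K * G = 1
  GK : G * K = 1
  hK : Kᴴ = K

section defs

variable (W : WAlg n A) (K G : Mt n A)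

/-- connection matrices -/
def th (a : Fin n) : Mt n A := mD (der W a) K * G

/-- conjugate connection matrices -/
def tb (b : Fin n) : Mt n A := G * mD (derb W b) K

/-- torsion -/
def tau (a i j : Fin n) : A := W.d a (K i j) - W.d i (K a j)

/-- the second Ricci curvature -/
def rho : Mt n A := ∑ a, ∑ b, G b a • mD (derb W b) (th W K G a)

/-- the first Ricci curvature -/
def ric : Mt n A := Matrix.of fun i j => (mD (derb W j) (th W K G i)).trace

/-- covariant derivative of an endomorphism -/
def nab (i : Fin n) (M : Mt n A) : Mt n A := mD (der W i) M - th W K G i * M + M * th W K G i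

/-- commutator terms -/
def cm (t : Mt n A) (N : Fin n → Mt n A) (j : Fin n) : Mt n A :=
  -(N j * t) + t * N j - ∑ q, t q j • N q

/-- `|θ|²` -/
def SS : A := pair G K (th W K G) (tb W K G)

/-- the Laplacian -/
def lap (x : A) : A := ∑ a, ∑ b, G b a * W.d a (W.db b x)

/-- the time derivative of `θ` -/
def thd (i : Fin n) : Mt n A := nab W K G i (ric W K G * G)

/-- the time derivative of `|θ|²` -/
def Sd : A := pair G K (thd W K G) (tb W K G) +
  pair G K (th W K G) (fun j => (thd W K G j)ᴴ + cm (G * ric W K G) (tb W K G) j)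

/-- the good terms -/
def PN : A :=
  ∑ a, ∑ b, G b a * pair G K (fD (derb W b) (th W K G)) (fD (der W a) (tb W K G))
  + ∑ a, ∑ b, G b a * pair G K (Dd (der W a) (th W K G a) (th W K G))
    (Db (derb W b) (tb W K G b) (tb W K G))

/-- the difference of the Ricci curvatures -/
def EE : Mt n A := ric W K G * G - rho W K G

/-- the torsion terms -/
def ZZ (i : Fin n) : Mt n A := nab W K G i (EE W K G) +
  ∑ a, ∑ b, G b a • ∑ p, (th W K G a i p - th W K G i a p) • mD (derb W b) (th W K G p)

/-- the error -/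
def Err : A := pair G K (ZZ W K G) (tb W K G) +
  pair G K (th W K G) (fun j => (ZZ W K G j)ᴴ + cm (EE W K G)ᴴ (tb W K G) j)

/-- the contracted second derivative -/
def QQ (i : Fin n) : Mt n A :=
  ∑ a, ∑ b, G b a • Dd (der W a) (th W K G a) (fD (derb W b) (th W K G)) i

end defs

variable {W : WAlg n A} {K G : Mt n A}

namespace HS

variable (h : HS K G)
include h

lemma hG : Gᴴ = G := by
  have h1 : Gᴴ * K = 1 := by
    have := congrArg conjTranspose h.KG
    rwa [conjTranspose_mul, h.hK, conjTranspose_one] at this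
  calc Gᴴ = Gᴴ * (K * G) := by rw [h.KG, Matrix.mul_one]
    _ = G := by rw [← Matrix.mul_assoc, h1, Matrix.one_mul]

lemma star_G (a b : Fin n) : star (G a b) = G b a := by
  have := congrFun (congrFun h.hG b) a
  rwa [conjTranspose_apply] at this

lemma star_K (a b : Fin n) : star (K a b) = K b a := by
  have := congrFun (congrFun h.hK b) a
  rwa [conjTranspose_apply] at this

lemma dK (a : Fin n) : mD (der W a) K = th W K G a * K := by
  rw [th, Matrix.mul_assoc, h.GK, Matrix.mul_one]

lemma dbK (b : Fin n) : mD (derb W b) K = K * tb W K G b := by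
  rw [tb, ← Matrix.mul_assoc, h.KG, Matrix.one_mul]

lemma dG (a : Fin n) : mD (der W a) G = -(G * th W K G a) := by
  have h1 : mD (der W a) (G * K) = 0 := by rw [h.GK, mD_one]
  rw [mD_mul, h.dK] at h1
  calc mD (der W a) G = (mD (der W a) G * K + G * (th W K G a * K)) * G - G * th W K G a * (K * G)
        + mD (der W a) G * (1 - K * G) := by noncomm_ring
    _ = -(G * th W K G a) := by rw [h1, h.KG]; noncomm_ring

lemma dbG (b : Fin n) : mD (derb W b) G = -(tb W K G b * G) := by
  have h1 : mD (derb W b) (K * G) = 0 := by rw [h.KG, mD_one]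
  rw [mD_mul, h.dbK] at h1
  calc mD (derb W b) G = G * (K * tb W K G b * G + K * mD (derb W b) G) - (G * K) * tb W K G b * G
        + (1 - G * K) * mD (derb W b) G := by noncomm_ring
    _ = -(tb W K G b * G) := by rw [h1, h.GK]; noncomm_ring

lemma tb_eq (b : Fin n) : tb W K G b = (th W K G b)ᴴ := by
  rw [tb, th, conjTranspose_mul, h.hG, mD_der, mD_derb, ← W.Db_conjTranspose, h.hK]

lemma tb_eq' : tb W K G = fun b => (th W K G b)ᴴ := funext h.tb_eq

lemma Db_eq (b j : Fin n) : Db (derb W b) (tb W K G b) (tb W K G) j =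
    (Dd (der W b) (th W K G b) (th W K G) j)ᴴ := by
  rw [h.tb_eq', Db_eq_Dd_conj]

lemma fD_eq (a j : Fin n) : fD (der W a) (tb W K G) j = (fD (derb W a) (th W K G) j)ᴴ := by
  rw [h.tb_eq', fD_conj]

lemma flat (a i : Fin n) : mD (der W a) (th W K G i) + th W K G i * th W K G a =
    mD (der W i) (th W K G a) + th W K G a * th W K G i := by
  have h1 : mD (der W a) (mD (der W i) K) = mD (der W i) (mD (der W a) K) :=
    mD_comm' (fun x => W.d_d a i x) K
  rw [h.dK, h.dK, mD_mul, mD_mul, h.dK, h.dK] at h1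
  generalize th W K G = θ at h1 ⊢
  calc mD (der W a) (θ i) + θ i * θ a = (mD (der W a) (θ i) * K + θ i * (θ a * K)) * G
        + (mD (der W a) (θ i) + θ i * θ a) * (1 - K * G) := by noncomm_ring
    _ = (mD (der W i) (θ a) * K + θ a * (θ i * K)) * G
        + (mD (der W a) (θ i) + θ i * θ a) * (1 - K * G) := by rw [h1]
    _ = (mD (der W i) (θ a) + θ a * θ i) * (K * G)
        + (mD (der W a) (θ i) + θ i * θ a) * (1 - K * G) := by noncomm_ring
    _ = _ := by rw [h.KG]; noncomm_ring

/-- the second Bianchi identity with torsion -/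
lemma bianchi (a b i : Fin n) :
    Dd (der W a) (th W K G a) (fD (derb W b) (th W K G)) i =
      Dd (der W i) (th W K G i) (fD (derb W b) (th W K G)) a
      - ∑ p, (th W K G a i p - th W K G i a p) • mD (derb W b) (th W K G p) := by
  have h1 := congrArg (mD (derb W b)) (h.flat (W := W) a i)
  have mix : ∀ a x, der W a (derb W b x) = derb W b (der W a x) := fun a x => W.d_db a b x
  rw [mD_add, mD_add, mD_mul, mD_mul, ← mD_comm' (mix a), ← mD_comm' (mix i)] at h1
  generalize th W K G = θ at h1 ⊢
  simp only [Dd, fD, sub_smul, Finset.sum_sub_distrib]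
  have h3 : mD (der W a) (mD (derb W b) (θ i)) = mD (der W i) (mD (derb W b) (θ a))
      + (mD (derb W b) (θ a) * θ i + θ a * mD (derb W b) (θ i))
      - (mD (derb W b) (θ i) * θ a + θ i * mD (derb W b) (θ a)) := by
    rw [eq_sub_iff_add_eq, h1]
  rw [h3]
  abel

lemma Q_eq (i : Fin n) : QQ W K G i = nab W K G i (rho W K G) -
    ∑ a, ∑ b, G b a • ∑ p, (th W K G a i p - th W K G i a p) • mD (derb W b) (th W K G p) := by
  have e1 : QQ W K G i =
      ∑ a, ∑ b, G b a • Dd (der W i) (th W K G i) (fD (derb W b) (th W K G)) a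
      - ∑ a, ∑ b, G b a • ∑ p, (th W K G a i p - th W K G i a p) • mD (derb W b) (th W K G p) := by
    rw [QQ, ← Finset.sum_sub_distrib]
    refine Finset.sum_congr rfl fun a _ => ?_
    rw [← Finset.sum_sub_distrib]
    refine Finset.sum_congr rfl fun b _ => ?_
    rw [h.bianchi, smul_sub]
  rw [e1]
  congr 1
  have h2 : ∀ b a, der W i (G b a) = -(∑ p, G b p * th W K G i p a) := by
    intro b a
    have := congrFun (congrFun (h.dG (W := W) i) b) a
    simpa [Matrix.mul_apply] using this
  rw [nab, rho]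
  generalize th W K G = θ at h2 ⊢
  simp only [mD_sum, mD_smul, Finset.sum_add_distrib]
  have e3 : ∑ a, ∑ b, (der W i) (G b a) • mD (derb W b) (θ a) =
      -∑ a, ∑ b, G b a • ∑ p, θ i a p • mD (derb W b) (θ p) := by
    simp only [h2, Finset.smul_sum, neg_smul, Finset.sum_smul, Finset.sum_neg_distrib, smul_smul,
      neg_inj]
    calc ∑ a, ∑ b, ∑ p, (G b p * θ i p a) • mD (derb W b) (θ a)
        = ∑ a, ∑ p, ∑ b, (G b p * θ i p a) • mD (derb W b) (θ a) :=
          Finset.sum_congr rfl fun i _ => Finset.sum_comm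
      _ = ∑ p, ∑ a, ∑ b, (G b p * θ i p a) • mD (derb W b) (θ a) := Finset.sum_comm
      _ = _ := Finset.sum_congr rfl fun i _ => Finset.sum_comm
  rw [e3]
  simp only [Dd, fD, smul_sub, smul_add, Finset.sum_sub_distrib, Finset.sum_add_distrib,
    Matrix.mul_sum, Matrix.sum_mul, Matrix.mul_smul, Matrix.smul_mul]
  abel

lemma Z_eq (i : Fin n) : ZZ W K G i = thd W K G i - QQ W K G i := by
  rw [h.Q_eq, ZZ, thd, EE]
  simp only [nab, mD_sub, Matrix.mul_sub, Matrix.sub_mul]
  abel

lemma Q_conj (j : Fin n) : (QQ W K G j)ᴴ =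
    ∑ a, ∑ b, G b a • Db (derb W b) (tb W K G b) (fD (der W a) (tb W K G)) j := by
  rw [QQ, Finset.sum_comm, conjTranspose_sum]
  refine Finset.sum_congr rfl fun a _ => ?_
  rw [conjTranspose_sum]
  refine Finset.sum_congr rfl fun b _ => ?_
  rw [conjTranspose_smul, h.star_G, ← Db_eq_Dd_conj, ← h.tb_eq]
  congr 2
  funext j
  rw [h.fD_eq]

lemma rho_conj : (rho W K G)ᴴ = ∑ a, ∑ b, G b a • mD (der W a) (tb W K G b) := by
  rw [rho, Finset.sum_comm, conjTranspose_sum]
  refine Finset.sum_congr rfl fun a _ => ?_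
  rw [conjTranspose_sum]
  refine Finset.sum_congr rfl fun b _ => ?_
  rw [conjTranspose_smul, h.star_G]
  congr 1
  exact (h.fD_eq a b).symm

lemma commut (a b j : Fin n) :
    mD (der W a) (Db (derb W b) (tb W K G b) (tb W K G) j) =
      Db (derb W b) (tb W K G b) (fD (der W a) (tb W K G)) j
      + cm (mD (der W a) (tb W K G b)) (tb W K G) j := by
  have mix : ∀ x, der W a (derb W b x) = derb W b (der W a x) := fun x => W.d_db a b x
  simp only [Db, fD, cm, mD_sub, mD_add, mD_mul, mD_sum, mD_smul, Finset.sum_add_distrib,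
    mD_comm' mix, mD_apply]
  abel

omit h in
lemma cm_sum (c : Fin n → Fin n → A) (t : Fin n → Fin n → Mt n A) (N : Fin n → Mt n A)
    (j : Fin n) : ∑ a, ∑ b, c a b • cm (t a b) N j = cm (∑ a, ∑ b, c a b • t a b) N j := by
  have e3 : ∑ a, ∑ b, c a b • ∑ q, t a b q j • N q =
      ∑ q, (∑ a, ∑ b, c a b • t a b) q j • N q := by
    simp only [Matrix.sum_apply, Matrix.smul_apply, Finset.smul_sum, Finset.sum_smul, smul_smul,
      smul_eq_mul]
    calc ∑ a, ∑ b, ∑ q, (c a b * t a b q j) • N q
        = ∑ a, ∑ q, ∑ b, (c a b * t a b q j) • N q :=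
          Finset.sum_congr rfl fun i _ => Finset.sum_comm
      _ = _ := Finset.sum_comm
  simp only [cm, smul_sub, smul_add, smul_neg, Finset.sum_sub_distrib, Finset.sum_add_distrib,
    Finset.sum_neg_distrib, e3, Matrix.mul_sum, Matrix.sum_mul, Matrix.mul_smul, Matrix.smul_mul]

omit h in
lemma cm_sub (t t' : Mt n A) (N : Fin n → Mt n A) (j : Fin n) :
    cm (t - t') N j = cm t N j - cm t' N j := by
  simp only [cm, Matrix.mul_sub, Matrix.sub_mul, Matrix.sub_apply, sub_smul,
    Finset.sum_sub_distrib]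
  abel

lemma hW (a b : Fin n) : mD (derb W b) (th W K G a) * K =
    mD (derb W b) (mD (der W a) K) - th W K G a * K * tb W K G b := by
  rw [h.dK, mD_mul, h.dbK]; noncomm_ring

lemma hW' (a b : Fin n) : K * mD (der W a) (tb W K G b) =
    mD (derb W b) (mD (der W a) K) - th W K G a * K * tb W K G b := by
  have mix : ∀ x, der W a (derb W b x) = derb W b (der W a x) := fun x => W.d_db a b x
  rw [← mD_comm' mix, h.dbK, mD_mul, h.dK]; noncomm_ring

lemma ric_conj : (ric W K G)ᴴ = ric W K G := by
  ext i j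
  rw [conjTranspose_apply, ric, of_apply, of_apply, ← trace_conjTranspose]
  have h1 : (mD (derb W i) (th W K G j))ᴴ = mD (der W i) (tb W K G j) := (h.fD_eq i j).symm
  rw [h1]
  calc (mD (der W i) (tb W K G j)).trace = (G * (K * mD (der W i) (tb W K G j))).trace := by
        rw [← Matrix.mul_assoc, h.GK, Matrix.one_mul]
    _ = (mD (derb W j) (th W K G i) * K * G).trace := by rw [h.hW', ← h.hW, trace_mul_comm]
    _ = _ := by rw [Matrix.mul_assoc, h.KG, Matrix.mul_one]

lemma E_conj : (EE W K G)ᴴ = G * ric W K G - (rho W K G)ᴴ := by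
  rw [EE, conjTranspose_sub, conjTranspose_mul, h.hG, h.ric_conj]

/-- first derivative of `S` -/
theorem dS (a : Fin n) : W.d a (SS W K G) =
    pair G K (Dd (der W a) (th W K G a) (th W K G)) (tb W K G)
      + pair G K (th W K G) (fD (der W a) (tb W K G)) :=
  D_pair_d (der W a) G K (th W K G a) (h.dK a) (h.dG a) _ _

theorem lap_S : lap W G (SS W K G) = pair G K (QQ W K G) (tb W K G) + PN W K G
    + pair G K (th W K G) (fun j => (QQ W K G j)ᴴ + cm (rho W K G)ᴴ (tb W K G) j) := by
  have e1 : ∀ a b, W.d a (W.db b (SS W K G)) =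
      pair G K (Dd (der W a) (th W K G a) (fD (derb W b) (th W K G))) (tb W K G)
      + pair G K (fD (derb W b) (th W K G)) (fD (der W a) (tb W K G))
      + pair G K (Dd (der W a) (th W K G a) (th W K G)) (Db (derb W b) (tb W K G b) (tb W K G))
      + pair G K (th W K G) (fD (der W a) (Db (derb W b) (tb W K G b) (tb W K G))) := by
    intro a b
    change der W a (derb W b (pair G K _ _)) = _
    rw [D_pair_db (derb W b) G K (tb W K G b) (h.dbK b) (h.dbG b), map_add,
      D_pair_d (der W a) G K (th W K G a) (h.dK a) (h.dG a),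
      D_pair_d (der W a) G K (th W K G a) (h.dK a) (h.dG a)]
    ring
  have e2 : ∑ a, ∑ b, G b a *
      pair G K (Dd (der W a) (th W K G a) (fD (derb W b) (th W K G))) (tb W K G) =
      pair G K (QQ W K G) (tb W K G) := by
    have : QQ W K G = ∑ a, ∑ b, G b a • Dd (der W a) (th W K G a) (fD (derb W b) (th W K G)) := by
      funext i
      rw [QQ]
      simp only [Finset.sum_apply, Pi.smul_apply]
    rw [this]
    simp only [map_sum, map_smul, LinearMap.sum_apply, LinearMap.smul_apply, smul_eq_mul]
  have e3 : ∑ a, ∑ b, G b a *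
      pair G K (th W K G) (fD (der W a) (Db (derb W b) (tb W K G b) (tb W K G))) =
      pair G K (th W K G) (fun j => (QQ W K G j)ᴴ + cm (rho W K G)ᴴ (tb W K G) j) := by
    have : (fun j => (QQ W K G j)ᴴ + cm (rho W K G)ᴴ (tb W K G) j) =
        ∑ a, ∑ b, G b a • fD (der W a) (Db (derb W b) (tb W K G b) (tb W K G)) := by
      funext j
      rw [h.Q_conj, h.rho_conj, ← cm_sum fun a b => G b a]
      simp only [Finset.sum_apply, Pi.smul_apply, fD, h.commut, smul_add, Finset.sum_add_distrib]
    rw [this]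
    simp only [map_sum, map_smul, smul_eq_mul]
  simp only [lap, e1, mul_add, Finset.sum_add_distrib]
  rw [e2, e3, PN]
  ring

/-- **the Bochner formula** -/
theorem boch : Sd W K G - lap W G (SS W K G) = Err W K G - PN W K G := by
  have e1 : ZZ W K G = thd W K G - QQ W K G := funext h.Z_eq
  have e2 : (fun j => (ZZ W K G j)ᴴ + cm (EE W K G)ᴴ (tb W K G) j) =
      (fun j => (thd W K G j)ᴴ + cm (G * ric W K G) (tb W K G) j)
      - fun j => (QQ W K G j)ᴴ + cm (rho W K G)ᴴ (tb W K G) j := by
    funext j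
    rw [h.Z_eq, h.E_conj, cm_sub, conjTranspose_sub, Pi.sub_apply]
    abel
  rw [h.lap_S, Sd, Err, e2, map_sub, e1, map_sub, LinearMap.sub_apply]
  ring

/-- the heat operator on the trace -/
theorem heat_tr : (ric W K G).trace - lap W G K.trace = (K * (EE W K G)ᴴ).trace
    - ∑ a, ∑ b, G b a * (th W K G a * K * tb W K G b).trace := by
  have e1 : ∀ a b, W.d a (W.db b K.trace) = (K * mD (der W a) (tb W K G b)).trace
      + (th W K G a * K * tb W K G b).trace := by
    intro a b
    change der W a (derb W b _) = _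
    rw [D_trace, h.dbK, D_trace, mD_mul, h.dK, Matrix.trace_add, add_comm]
  have e2 : ∑ a, ∑ b, G b a * (K * mD (der W a) (tb W K G b)).trace =
      (K * (rho W K G)ᴴ).trace := by
    rw [h.rho_conj]
    simp only [Matrix.mul_sum, Matrix.trace_sum, Matrix.mul_smul, Matrix.trace_smul, smul_eq_mul]
  simp only [lap, e1, mul_add, Finset.sum_add_distrib]
  rw [e2, h.E_conj, Matrix.mul_sub, trace_sub, ← Matrix.mul_assoc, h.KG, Matrix.one_mul]
  ring

lemma th_sub (a i p : Fin n) :
    th W K G a i p - th W K G i a p = ∑ j, tau W K a i j * G j p := by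
  simp only [th, Matrix.mul_apply, mD_apply, der_apply, tau, sub_mul, Finset.sum_sub_distrib]

lemma star_tau (b j i : Fin n) : star (tau W K b j i) = W.db b (K i j) - W.db j (K i b) := by
  rw [tau, star_sub, ← W.db_star, ← W.db_star, h.star_K, h.star_K]

lemma W_sub (a b i j : Fin n) :
    (mD (derb W j) (th W K G i) * K) a b - (mD (derb W b) (th W K G a) * K) i j =
      W.db j (tau W K i a b) + W.d a (star (tau W K j b i))
      - ∑ p, tau W K i a p * tb W K G j p b - ∑ q, th W K G a i q * star (tau W K j b q) := by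
  have e1 : (th W K G i * K * tb W K G j) a b = (th W K G a * K * tb W K G j) i b
      + ∑ p, tau W K i a p * tb W K G j p b := by
    rw [← h.dK, ← h.dK]
    simp only [Matrix.mul_apply, mD_apply, der_apply, tau, ← Finset.sum_add_distrib]
    exact Finset.sum_congr rfl fun p _ => by ring
  have e2 : (th W K G a * K * tb W K G j) i b = (th W K G a * K * tb W K G b) i j
      + ∑ q, th W K G a i q * star (tau W K j b q) := by
    rw [Matrix.mul_assoc, Matrix.mul_assoc, ← h.dbK, ← h.dbK]
    simp only [Matrix.mul_apply, mD_apply, derb_apply, h.star_tau, ← Finset.sum_add_distrib]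
    exact Finset.sum_congr rfl fun p _ => by ring
  rw [h.hW, h.hW, Matrix.sub_apply, Matrix.sub_apply, e1, e2, h.star_tau, tau]
  simp only [mD_apply, der_apply, derb_apply, W.db_sub, W.d_sub, W.d_db]
  ring

/-- the difference of the Ricci curvatures is a torsion term -/
theorem E_eq : EE W K G = (Matrix.of fun i j => ∑ a, ∑ b, G b a *
    (W.db j (tau W K i a b) + W.d a (star (tau W K j b i))
      - ∑ p, tau W K i a p * tb W K G j p b - ∑ q, th W K G a i q * star (tau W K j b q))) * G := by
  have e1 : EE W K G = (ric W K G - rho W K G * K) * G := by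
    rw [EE, Matrix.sub_mul, Matrix.mul_assoc, h.KG, Matrix.mul_one]
  rw [e1]
  congr 1
  ext i j
  have e2 : ric W K G i j = ∑ a, ∑ b, G b a * (mD (derb W j) (th W K G i) * K) a b := by
    have : ric W K G i j = (G * (mD (derb W j) (th W K G i) * K)).trace := by
      rw [Matrix.trace_mul_comm, Matrix.mul_assoc, h.KG, Matrix.mul_one]; rfl
    rw [this, Matrix.trace]
    simp only [Matrix.diag_apply, Matrix.mul_apply (M := G)]
    exact Finset.sum_comm
  have e3 : (rho W K G * K) i j = ∑ a, ∑ b, G b a * (mD (derb W b) (th W K G a) * K) i j := by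
    simp only [rho, Matrix.sum_mul, Matrix.smul_mul, Matrix.sum_apply, Matrix.smul_apply,
      smul_eq_mul]
  rw [Matrix.sub_apply, e2, e3, of_apply, ← Finset.sum_sub_distrib]
  refine Finset.sum_congr rfl fun a _ => ?_
  rw [← Finset.sum_sub_distrib]
  refine Finset.sum_congr rfl fun b _ => ?_
  rw [← mul_sub, h.W_sub]

lemma thd_eq (i : Fin n) : thd W K G i =
    mD (der W i) (ric W K G) * G - th W K G i * (ric W K G * G) := by
  rw [thd, nab, mD_mul, h.dG]
  noncomm_ring

end HS

end Vale.Agent.P253W.FP.C3r
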