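import Vale.Agent.P253W.FP.C3.Ord

/-!
# P253W, block FP, row C3: the pointwise inequalities
-/

set_option linter.all false

open Matrix Finset
open scoped ComplexOrder InnerProductSpace ComplexConjugate

noncomputable section

namespace Vale.Agent.P253W.FP.C3r

open Vale.Agent.P272.K Vale.Agent.P272.K.C3 Vale.Agent.P272.K.P1

variable {n : ℕ} {A : Type*} [CommRing A] [StarRing A] {ι : Type*}
variable {W : WAlg n A} {K G : Mt n A}

section point

variable (e : A →+* ℂ)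

lemma e_trace (M : Mt n A) : e M.trace = (M.map e).trace := by
  simp [Matrix.trace, map_sum]

lemma e_pair (M N : Fin n → Mt n A) : e (pair G K M N) =
    pair (G.map e) (K.map e) (fun i => (M i).map e) (fun i => (N i).map e) := by
  simp only [pair_apply, map_sum, map_mul, e_trace, Matrix.map_mul, Matrix.map_apply]

variable {e} (he : ∀ a, e (star a) = star (e a))
include he

lemma e_conj (M : Mt n A) : Mᴴ.map e = (M.map e)ᴴ := by
  ext i j
  exact he (M j i)

variable {B Bi : Mt n ℂ} (hs : Sq (G.map e) (K.map e) B Bi)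
include hs

lemma e_pair_conj (M N N' : Fin n → Mt n A) (hN : ∀ j, N' j = (N j)ᴴ) :
    e (pair G K M N') =
      ⟪Ph B Bi (fun i => (N i).map e), Ph B Bi (fun i => (M i).map e)⟫_ℂ := by
  rw [e_pair, ← hs.pair_eq]
  congr 1
  funext j
  rw [hN, e_conj he]

variable (h : HS K G)
include h

lemma e_SS : e (SS W K G) = ((‖Ph B Bi fun i => (th W K G i).map e‖ ^ 2 : ℝ) : ℂ) := by
  rw [SS, e_pair_conj he hs _ _ _ h.tb_eq, inner_self_eq_norm_sq_to_K]
  push_cast
  rfl

lemma e_dS (a : Fin n) : e (W.d a (SS W K G)) =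
    ⟪Ph B Bi fun i => (th W K G i).map e,
      Ph B Bi fun i => (Dd (der W a) (th W K G a) (th W K G) i).map e⟫_ℂ
    + ⟪Ph B Bi fun i => (fD (derb W a) (th W K G) i).map e,
      Ph B Bi fun i => (th W K G i).map e⟫_ℂ := by
  rw [h.dS, map_add, e_pair_conj he hs _ _ _ h.tb_eq, e_pair_conj he hs _ _ _ (h.fD_eq a)]

lemma e_PN : e (PN W K G) = ((∑ c, ‖Ph B Bi (∑ a, B c a •
      fun i => (Dd (der W a) (th W K G a) (th W K G) i).map e)‖ ^ 2
    + ∑ c, ‖Ph B Bi (∑ a, conj (B c a) •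
      fun i => (fD (derb W a) (th W K G) i).map e)‖ ^ 2 : ℝ) : ℂ) := by
  have h1 := fun a b => e_pair_conj he hs (fD (derb W b) (th W K G)) _ _ (h.fD_eq (W := W) a)
  have h2 := fun a b => e_pair_conj he hs (Dd (der W a) (th W K G a) (th W K G)) _ _
    (h.Db_eq (W := W) b)
  have hG : ∀ b a, e (G b a) = G.map e b a := fun b a => rfl
  simp only [PN, map_add, map_sum, map_mul, hG, h1, h2]
  rw [hs.sum_eq, hs.sum_eq']
  simp only [inner_self_eq_norm_sq_to_K]
  rw [add_comm, Complex.ofReal_add, Complex.ofReal_sum, Complex.ofReal_sum]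
  simp only [Complex.ofReal_pow, map_sum]
  rfl

end point

lemma recov {B Bi : Mt n ℂ} (h : Bi * B = 1) (X : Fin n → Fin n → Mt n ℂ) (a : Fin n) :
    X a = ∑ c, Bi a c • ∑ a', B c a' • X a' := by
  simp only [Finset.smul_sum, smul_smul]
  rw [Finset.sum_comm]
  simp only [← Finset.sum_smul, ← Matrix.mul_apply, h]
  rw [Finset.sum_eq_single a]
  · simp
  · intro b _ hb
    rw [Matrix.one_apply_ne hb.symm, zero_smul]
  · simp

/-- entries of a family of families are bounded by its norm -/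
lemma fam_le {G K B Bi : Mt n ℂ} {β q : ℝ} (hs : Sq G K B Bi) (hβ : 1 ≤ β) (hG : EB G β)
    (hK : EB K β) {C Ci : Mt n ℂ} (h : Ci * C = 1) (hC : EB Ci β) (X : Fin n → Fin n → Mt n ℂ)
    (hq : ∀ c, ‖Ph B Bi (∑ a, C c a • X a)‖ ≤ q) (a i : Fin n) :
    EB (X a i) (n * (β * (n * (β * (n * (n * (β * q) * β)))))) := by
  have h1 : X a i = ∑ c, Ci a c • (∑ a', C c a' • X a') i := by
    conv_lhs => rw [recov h X a]
    simp only [Finset.sum_apply, Pi.smul_apply]
  rw [h1]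
  refine EB.sum fun c => EB.smul ((hs.entry_le hβ hG hK _ i).mono ?_) (hC a c)
  have := hq c
  have : (0 : ℝ) ≤ β := by linarith
  gcongr

lemma sq_le_of {x : Fin n → ℝ} {y P : ℝ} (h : ∑ c, x c ^ 2 + y ≤ P) (hy : 0 ≤ y)
    (c : Fin n) : x c ≤ √P :=
  Real.le_sqrt_of_sq_le (le_trans (Finset.single_le_sum (f := fun c => x c ^ 2)
    (fun _ _ => sq_nonneg _) (Finset.mem_univ c)) (by linarith))

theorem est (h : HS K G) (ev : ι → A →+* ℂ) (hev : ∀ ω a, ev ω (star a) = star (ev ω a))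
    {β : ℝ} (hβ : 1 ≤ β) (hpd : ∀ ω, (K.map (ev ω)).PosDef) (hK : ∀ ω, EB (K.map (ev ω)) β)
    (hG : ∀ ω, EB (G.map (ev ω)) β) (ht : TB W ev K) : ∃ B : ℝ, 1 ≤ B ∧ ∀ ω,
      0 ≤ (ev ω (PN W K G)).re ∧
      (ev ω (Sd W K G)).re - (ev ω (lap W G (SS W K G))).re ≤
        B * (1 + (ev ω (SS W K G)).re * √(ev ω (SS W K G)).re) - (ev ω (PN W K G)).re / 2 ∧
      (ev ω (ric W K G).trace).re - (ev ω (lap W G K.trace)).re ≤
        B - (ev ω (SS W K G)).re / B ∧
      (∑ i, ∑ j, ev ω (G j i) * ev ω (W.d i (SS W K G)) * conj (ev ω (W.d j (SS W K G)))).re ≤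
        B * (ev ω (SS W K G)).re * ((ev ω (PN W K G)).re / 2) := by
  have hβ0 : (0 : ℝ) ≤ β := by linarith
  have hsq : ∀ ω, ∃ B Bi : Mt n ℂ, Sq (G.map (ev ω)) (K.map (ev ω)) B Bi := fun ω => by
    have h1 : K.map (ev ω) * G.map (ev ω) = 1 := by
      rw [← Matrix.map_mul, h.KG, Matrix.map_one _ (map_zero _) (map_one _)]
    rw [← Matrix.inv_eq_right_inv h1]
    exact exists_Sq (hpd ω)
  choose B Bi hs using hsq
  obtain ⟨σ, hσ⟩ : ∃ σ : ι → ℝ, ∀ ω,
    σ ω = ‖Ph (B ω) (Bi ω) fun i => (th W K G i).map (ev ω)‖ := ⟨_, fun _ => rfl⟩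
  have hσ0 : ∀ ω, 0 ≤ σ ω := fun ω => by rw [hσ]; exact norm_nonneg _
  have hS : ∀ ω, (ev ω (SS W K G)).re = σ ω ^ 2 := fun ω => by
    rw [e_SS (hev ω) (hs ω) h, Complex.ofReal_re, hσ]
  have hP := fun ω => congrArg Complex.re (e_PN (W := W) (hev ω) (hs ω) h)
  simp only [Complex.ofReal_re] at hP
  have hP0 : ∀ ω, 0 ≤ (ev ω (PN W K G)).re := fun ω => by rw [hP]; positivity
  obtain ⟨q, hq⟩ : ∃ q : ι → ℝ, ∀ ω, q ω = √(ev ω (PN W K G)).re := ⟨_, fun _ => rfl⟩
  have hq0 : ∀ ω, 0 ≤ q ω := fun ω => by rw [hq]; exact Real.sqrt_nonneg _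
  have hq2 : ∀ ω, (ev ω (PN W K G)).re = q ω ^ 2 := fun ω => by rw [hq, Real.sq_sqrt (hP0 ω)]
  have oK : OM ev 1 K := fun i j => ⟨β, hβ0, fun ω => by simpa using hK ω i j⟩
  have oG : OM ev 1 G := fun i j => ⟨β, hβ0, fun ω => by simpa using hG ω i j⟩
  have hqu : ∀ ω, q ω ≤ |(1 + σ ω) ^ 2 + q ω| := fun ω =>
    le_trans (by nlinarith [sq_nonneg (1 + σ ω)]) (le_abs_self _)
  obtain ⟨⟨C, hC0, hC⟩, ⟨C', hC0', hC'⟩⟩ := ord_err (s := fun ω => 1 + σ ω)
    (u := fun ω => (1 + σ ω) ^ 2 + q ω) h hev oK oG ht (fun ω => by linarith [hσ0 ω])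
    (fun ω => by
      rw [Pi.mul_apply, abs_mul_self]
      exact le_trans (by nlinarith [hq0 ω]) (le_abs_self _))
    (fun a i j => ⟨n * (β * (n * (n * (β * 1) * β))), by positivity, fun ω => by
      refine ((hs ω).entry_le hβ (hG ω) (hK ω) (fun i => (th W K G i).map (ev ω)) a i j).trans ?_
      rw [← hσ, abs_of_nonneg (by linarith [hσ0 ω])]
      have : (n : ℝ) * (β * (n * (n * (β * σ ω) * β))) =
        n * (β * (n * (n * (β * 1) * β))) * σ ω := by ring
      rw [this]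
      gcongr
      linarith⟩)
    (fun a i j k => ⟨n * (β * (n * (β * (n * (n * (β * 1) * β))))), by positivity, fun ω => by
      refine (fam_le (q := q ω) (hs ω) hβ (hG ω) (hK ω) (hs ω).BiB ((hs ω).Bi_bound hβ (hK ω))
        (fun a i => (Dd (der W a) (th W K G a) (th W K G) i).map (ev ω)) (fun c => ?_) a i j k).trans ?_
      · rw [hq]
        exact sq_le_of (hP ω).ge (by positivity) c
      · have : (n : ℝ) * (β * (n * (β * (n * (n * (β * q ω) * β))))) =
          n * (β * (n * (β * (n * (n * (β * 1) * β))))) * q ω := by ring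
        rw [this]
        exact mul_le_mul_of_nonneg_left (hqu ω) (by positivity)⟩)
    (fun a i j k => ⟨n * (β * (n * (β * (n * (n * (β * 1) * β))))), by positivity, fun ω => by
      have h1 : (Bi ω).map conj * (B ω).map conj = 1 := by
        rw [← Matrix.map_mul, (hs ω).BiB, Matrix.map_one _ (map_zero _) (map_one _)]
      refine (fam_le (q := q ω) (hs ω) hβ (hG ω) (hK ω) h1 (fun i j => ?_)
        (fun a i => (fD (derb W a) (th W K G) i).map (ev ω)) (fun c => ?_) a i j k).trans ?_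
      · rw [Matrix.map_apply, Complex.norm_conj]
        exact (hs ω).Bi_bound hβ (hK ω) i j
      · rw [hq]
        refine sq_le_of ((add_comm _ _).le.trans (hP ω).ge) (by positivity) c
      · have : (n : ℝ) * (β * (n * (β * (n * (n * (β * q ω) * β))))) =
          n * (β * (n * (β * (n * (n * (β * 1) * β))))) * q ω := by ring
        rw [this]
        exact mul_le_mul_of_nonneg_left (hqu ω) (by positivity)⟩)
  obtain ⟨c, hc⟩ : ∃ c : ℝ, c = n * β + 1 := ⟨_, rfl⟩
  have hc1 : 1 ≤ c := by rw [hc]; have : (0 : ℝ) ≤ n * β := by positivity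
                         linarith
  obtain ⟨Bd, b1, b2, b3, b4⟩ : ∃ Bd : ℝ, 4 ≤ Bd ∧ 4 * (C + C ^ 2) ≤ Bd ∧ 2 * c ≤ Bd ∧
      C' + C' ^ 2 * c ≤ Bd := by
    refine ⟨4 + 4 * (C + C ^ 2) + 2 * c + (C' + C' ^ 2 * c), ?_, ?_, ?_, ?_⟩ <;>
    · have : 0 ≤ C + C ^ 2 := by positivity
      have : 0 ≤ C' + C' ^ 2 * c := by positivity
      linarith
  refine ⟨Bd, by linarith, fun ω => ⟨hP0 ω, ?_, ?_, ?_⟩⟩
  · have h1 := congrArg (fun x => (ev ω x).re) (h.boch (W := W))
    simp only [map_sub, Complex.sub_re] at h1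
    have h2 := (Complex.re_le_norm _).trans (hC ω)
    rw [h1, hS, Real.sqrt_sq (hσ0 ω), hq2]
    have h3 := hσ0 ω
    have h4 := hq0 ω
    simp only [Pi.mul_apply] at h2
    rw [abs_of_nonneg (by positivity)] at h2
    generalize σ ω = x at *
    generalize q ω = y at *
    have h5 : (1 + x) ^ 3 ≤ 4 * (1 + x ^ 2 * x) := by
      nlinarith [mul_nonneg h3 (sq_nonneg (x - 1)), sq_nonneg (x - 1)]
    have h6 : (1 + x) ^ 2 ≤ (1 + x) ^ 3 := pow_le_pow_right₀ (by linarith) (by norm_num)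
    have h7 : C * (y * (1 + x)) ≤ C ^ 2 * (1 + x) ^ 2 + y ^ 2 / 2 := by
      nlinarith [sq_nonneg (C * (1 + x) - y), sq_nonneg (C * (1 + x))]
    have h8 : C ^ 2 * (1 + x) ^ 2 ≤ C ^ 2 * (1 + x) ^ 3 := by gcongr
    have h9 : (C + C ^ 2) * (1 + x) ^ 3 ≤ (C + C ^ 2) * (4 * (1 + x ^ 2 * x)) := by gcongr
    have h10 : 4 * (C + C ^ 2) * (1 + x ^ 2 * x) ≤ Bd * (1 + x ^ 2 * x) := by gcongr
    nlinarith
  · have h1 := congrArg (ev ω) (h.heat_tr (W := W))
    obtain ⟨τ, hτ1, hτ2⟩ := (hs ω).trace_ge (hG ω) (fun i => (th W K G i).map (ev ω))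
    have h2 : ev ω (∑ a, ∑ b, G b a * (th W K G a * K * tb W K G b).trace) = τ := by
      rw [← hτ1]
      simp only [map_sum, map_mul, e_trace, Matrix.map_mul, h.tb_eq, e_conj (hev ω),
        Matrix.map_apply]
    rw [map_sub, map_sub, h2] at h1
    have h3 := congrArg Complex.re h1
    simp only [Complex.sub_re, Complex.ofReal_re] at h3
    have h4 := (Complex.re_le_norm _).trans (hC' ω)
    have h5 := hσ0 ω
    simp only at h4
    rw [abs_of_nonneg (by positivity)] at h4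
    rw [← hσ] at hτ2
    have hτ0 : 0 ≤ τ := by
      rcases Nat.eq_zero_or_pos n with h0 | h0
      · subst h0
        simp only [Finset.univ_eq_empty, Finset.sum_empty] at hτ1
        exact_mod_cast hτ1.le
      · have : (0 : ℝ) < n * β := by positivity
        exact le_of_mul_le_mul_left (by nlinarith [sq_nonneg (σ ω)]) this
    rw [h3, hS]
    generalize σ ω = x at *
    have h6 : x ^ 2 ≤ c * τ := by rw [hc]; nlinarith
    have h7 : x ^ 2 / Bd ≤ τ / 2 := by
      rw [div_le_iff₀ (by linarith)]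
      nlinarith
    have h8 : C' * x ≤ C' ^ 2 * c + τ / 2 := by
      have h9 : c * (C' * x) ≤ c * (C' ^ 2 * c + τ / 2) := by
        nlinarith [sq_nonneg (c * C' - x), sq_nonneg (c * C')]
      exact le_of_mul_le_mul_left h9 (by linarith)
    nlinarith
  · have h1 := (hs ω).grad _ _ _ _ (e_dS (W := W) (hev ω) (hs ω) h)
    rw [← hP, ← hσ, ← hS] at h1
    refine le_trans h1 ?_
    have h2 : 0 ≤ (ev ω (SS W K G)).re * (ev ω (PN W K G)).re :=
      mul_nonneg (by rw [hS]; positivity) (hP0 ω)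
    nlinarith

end Vale.Agent.P253W.FP.C3r
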