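import Vale.Agent.P253W.FP.C3.Alg

/-!
# P253W, block FP, row C3: uniform bounds for the error terms
-/

set_option linter.all false

open Matrix Finset
open scoped ComplexOrder InnerProductSpace ComplexConjugate

noncomputable section

namespace Vale.Agent.P253W.FP.C3r

open Vale.Agent.P272.K Vale.Agent.P272.K.C3 Vale.Agent.P272.K.P1

variable {n : ℕ} {A : Type*} [CommRing A] [StarRing A] {ι : Type*}

/-- the values of `a` are `O(w)` -/
def Ord (ev : ι → A →+* ℂ) (w : ι → ℝ) (a : A) : Prop :=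
  ∃ C, 0 ≤ C ∧ ∀ ω, ‖ev ω a‖ ≤ C * |w ω|

/-- the entries of `M` are `O(w)` -/
def OM (ev : ι → A →+* ℂ) (w : ι → ℝ) (M : Mt n A) : Prop := ∀ i j, Ord ev w (M i j)

variable {ev : ι → A →+* ℂ} {w w' : ι → ℝ} {a b : A} {M N : Mt n A}

lemma Ord.zero : Ord ev w 0 := ⟨0, le_rfl, fun ω => by simp⟩

lemma Ord.add (ha : Ord ev w a) (hb : Ord ev w b) : Ord ev w (a + b) := by
  obtain ⟨C, hC, h⟩ := ha
  obtain ⟨C', hC', h'⟩ := hb
  refine ⟨C + C', by positivity, fun ω => ?_⟩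
  rw [map_add, add_mul]
  exact (norm_add_le _ _).trans (add_le_add (h ω) (h' ω))

lemma Ord.neg (ha : Ord ev w a) : Ord ev w (-a) := by
  obtain ⟨C, hC, h⟩ := ha
  exact ⟨C, hC, fun ω => by rw [map_neg, norm_neg]; exact h ω⟩

lemma Ord.sub (ha : Ord ev w a) (hb : Ord ev w b) : Ord ev w (a - b) := by
  rw [sub_eq_add_neg]; exact ha.add hb.neg

lemma Ord.sum {κ : Type*} [Fintype κ] {f : κ → A} (h : ∀ k, Ord ev w (f k)) :
    Ord ev w (∑ k, f k) :=
  Finset.sum_induction f (Ord ev w) (fun _ _ => Ord.add) Ord.zero fun k _ => h k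

lemma Ord.mul (ha : Ord ev w a) (hb : Ord ev w' b) : Ord ev (w * w') (a * b) := by
  obtain ⟨C, hC, h⟩ := ha
  obtain ⟨C', hC', h'⟩ := hb
  refine ⟨C * C', by positivity, fun ω => ?_⟩
  rw [map_mul, norm_mul, Pi.mul_apply, abs_mul, mul_mul_mul_comm]
  exact mul_le_mul (h ω) (h' ω) (norm_nonneg _) (by positivity)

lemma Ord.mono (ha : Ord ev w a) (h : ∀ ω, |w ω| ≤ |w' ω|) : Ord ev w' a := by
  obtain ⟨C, hC, h'⟩ := ha
  exact ⟨C, hC, fun ω => (h' ω).trans (mul_le_mul_of_nonneg_left (h ω) hC)⟩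

lemma Ord.lmul (ha : Ord ev 1 a) (hb : Ord ev w b) : Ord ev w (a * b) := by
  simpa using ha.mul hb

lemma Ord.rmul (ha : Ord ev w a) (hb : Ord ev 1 b) : Ord ev w (a * b) := by
  simpa using ha.mul hb

lemma Ord.star (hev : ∀ ω a, ev ω (star a) = star (ev ω a)) (ha : Ord ev w a) :
    Ord ev w (star a) := by
  obtain ⟨C, hC, h⟩ := ha
  exact ⟨C, hC, fun ω => by rw [hev, norm_star]; exact h ω⟩

lemma OM.add (hM : OM ev w M) (hN : OM ev w N) : OM ev w (M + N) :=
  fun i j => (hM i j).add (hN i j)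

lemma OM.sub (hM : OM ev w M) (hN : OM ev w N) : OM ev w (M - N) :=
  fun i j => (hM i j).sub (hN i j)

lemma OM.neg (hM : OM ev w M) : OM ev w (-M) := fun i j => (hM i j).neg

lemma OM.mul (hM : OM ev w M) (hN : OM ev w' N) : OM ev (w * w') (M * N) := fun i j => by
  rw [Matrix.mul_apply]
  exact Ord.sum fun k => (hM i k).mul (hN k j)

lemma OM.lmul (hM : OM ev 1 M) (hN : OM ev w N) : OM ev w (M * N) := by
  simpa using hM.mul hN

lemma OM.rmul (hM : OM ev w M) (hN : OM ev 1 N) : OM ev w (M * N) := by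
  simpa using hM.mul hN

lemma OM.smul (ha : Ord ev w a) (hM : OM ev w' M) : OM ev (w * w') (a • M) :=
  fun i j => ha.mul (hM i j)

lemma OM.lsmul (ha : Ord ev 1 a) (hM : OM ev w M) : OM ev w (a • M) :=
  fun i j => ha.lmul (hM i j)

lemma OM.sum {f : Fin n → Mt n A} (h : ∀ k, OM ev w (f k)) : OM ev w (∑ k, f k) := fun i j => by
  rw [Matrix.sum_apply]
  exact Ord.sum fun k => h k i j

lemma OM.mono (hM : OM ev w M) (h : ∀ ω, |w ω| ≤ |w' ω|) : OM ev w' M :=
  fun i j => (hM i j).mono h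

lemma OM.conj (hev : ∀ ω a, ev ω (star a) = star (ev ω a)) (hM : OM ev w M) : OM ev w Mᴴ :=
  fun i j => (hM j i).star hev

lemma OM.trace (hM : OM ev w M) : Ord ev w M.trace := Ord.sum fun k => hM k k

lemma Ord.pair {K G : Mt n A} {M N : Fin n → Mt n A} (hK : OM ev 1 K) (hG : OM ev 1 G)
    (hM : ∀ i, OM ev w (M i)) (hN : ∀ i, OM ev w' (N i)) : Ord ev (w * w') (pair G K M N) := by
  rw [pair_apply]
  exact Ord.sum fun i => Ord.sum fun j =>
    (hG j i).lmul (((hG.lmul (hM i)).rmul hK).mul (hN j)).trace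

lemma OM.cm {t : Mt n A} {N : Fin n → Mt n A} (ht : OM ev w t) (hN : ∀ i, OM ev w' (N i))
    (j : Fin n) : OM ev (w * w') (cm t N j) := by
  have h1 : OM ev (w * w') (N j * t) := by
    rw [mul_comm]; exact (hN j).mul ht
  exact (h1.neg.add (ht.mul (hN j))).sub (OM.sum fun q => OM.smul (ht q j) (hN q))

/-- values and first derivatives -/
def J (W : WAlg n A) (ev : ι → A →+* ℂ) (w w' : ι → ℝ) (a : A) : Prop :=
  Ord ev w a ∧ ∀ i, Ord ev w' (W.d i a)

variable {W : WAlg n A} {s u : ι → ℝ}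

lemma J.add (ha : J W ev w w' a) (hb : J W ev w w' b) : J W ev w w' (a + b) :=
  ⟨ha.1.add hb.1, fun i => by rw [W.d_add]; exact (ha.2 i).add (hb.2 i)⟩

lemma J.sub (ha : J W ev w w' a) (hb : J W ev w w' b) : J W ev w w' (a - b) :=
  ⟨ha.1.sub hb.1, fun i => by rw [W.d_sub]; exact (ha.2 i).sub (hb.2 i)⟩

lemma J.sum {f : Fin n → A} (h : ∀ k, J W ev w w' (f k)) : J W ev w w' (∑ k, f k) :=
  ⟨Ord.sum fun k => (h k).1, fun i => by rw [W.d_sum]; exact Ord.sum fun k => (h k).2 i⟩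

lemma J.lmul (hu : ∀ ω, |(s * s) ω| ≤ |u ω|) (ha : J W ev 1 s a) (hb : J W ev s u b) :
    J W ev s u (a * b) :=
  ⟨ha.1.lmul hb.1, fun i => by
    rw [W.d_mul]; exact (((ha.2 i).mul hb.1).mono hu).add (ha.1.lmul (hb.2 i))⟩

lemma J.rmul (hu : ∀ ω, |(s * s) ω| ≤ |u ω|) (ha : J W ev s u a) (hb : J W ev 1 s b) :
    J W ev s u (a * b) := by
  rw [mul_comm]; exact hb.lmul hu ha

/-- bounds on the torsion -/
structure TB (W : WAlg n A) (ev : ι → A →+* ℂ) (K : Mt n A) : Prop where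
  t0 : ∀ a i j, Ord ev 1 (tau W K a i j)
  t1 : ∀ a i j k, Ord ev 1 (W.d k (tau W K a i j))
  t2 : ∀ a i j k, Ord ev 1 (W.db k (tau W K a i j))
  t3 : ∀ a i j k l, Ord ev 1 (W.d l (W.db k (tau W K a i j)))
  t4 : ∀ a i j k l, Ord ev 1 (W.db l (W.db k (tau W K a i j)))

variable {K G : Mt n A}

theorem ord_err (h : HS K G) (hev : ∀ ω a, ev ω (star a) = star (ev ω a)) (hK : OM ev 1 K)
    (hG : OM ev 1 G) (ht : TB W ev K) (hs : ∀ ω, 1 ≤ s ω) (hu : ∀ ω, |(s * s) ω| ≤ |u ω|)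
    (hθ : ∀ a, OM ev s (th W K G a))
    (hX : ∀ a i, OM ev u (Dd (der W a) (th W K G a) (th W K G) i))
    (hY : ∀ a i, OM ev u (mD (derb W a) (th W K G i))) :
    Ord ev (u * s) (Err W K G) ∧ Ord ev s (K * (EE W K G)ᴴ).trace := by
  have h1s : ∀ ω, |(1 : ι → ℝ) ω| ≤ |s ω| := fun ω => by
    rw [Pi.one_apply, abs_one]; exact (hs ω).trans (le_abs_self _)
  have hsu : ∀ ω, |s ω| ≤ |u ω| := fun ω => by
    refine le_trans ?_ (hu ω)
    have := hs ω
    rw [Pi.mul_apply, abs_of_nonneg (by linarith), abs_of_nonneg (by nlinarith)]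
    nlinarith
  have h1u : ∀ ω, |(1 : ι → ℝ) ω| ≤ |u ω| := fun ω => (h1s ω).trans (hsu ω)
  have hϑ : ∀ a, OM ev s (tb W K G a) := fun a => by rw [h.tb_eq]; exact (hθ a).conj hev
  have jG : ∀ i j, J W ev 1 s (G i j) := fun i j => ⟨hG i j, fun k => by
    have := (hG.lmul (hθ k)).neg i j
    rw [← h.dG] at this
    exact this⟩
  have jτ : ∀ a i j, J W ev 1 s (tau W K a i j) := fun a i j =>
    ⟨ht.t0 a i j, fun k => (ht.t1 a i j k).mono h1s⟩
  have jτ' : ∀ a i j, J W ev 1 s (star (tau W K a i j)) := fun a i j =>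
    ⟨(ht.t0 a i j).star hev, fun k => by
      rw [W.d_star]; exact ((ht.t2 a i j k).star hev).mono h1s⟩
  have jdb : ∀ a i j k, J W ev s u (W.db k (tau W K a i j)) := fun a i j k =>
    ⟨(ht.t2 a i j k).mono h1s, fun l => (ht.t3 a i j k l).mono h1u⟩
  have jd : ∀ a i j k, J W ev s u (W.d k (star (tau W K a i j))) := fun a i j k => by
    rw [W.d_star]
    exact ⟨((ht.t2 a i j k).star hev).mono h1s, fun l => by
      rw [W.d_star]; exact ((ht.t4 a i j k l).star hev).mono h1u⟩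
  have jθ : ∀ a i j, J W ev s u (th W K G a i j) := fun a i j => ⟨hθ a i j, fun k => by
    have e : mD (der W k) (th W K G a) = Dd (der W k) (th W K G k) (th W K G) a
        + th W K G k * th W K G a - th W K G a * th W K G k
        + ∑ p, th W K G k a p • th W K G p := by
      rw [Dd]; abel
    have := ((((hX k a).add (((hθ k).mul (hθ a)).mono hu)).sub (((hθ a).mul (hθ k)).mono hu)).add
      ((OM.sum fun p => OM.smul (hθ k a p) (hθ p)).mono hu)) i j
    rw [← e] at this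
    exact this⟩
  have jϑ : ∀ a i j, J W ev s u (tb W K G a i j) := fun a i j => ⟨hϑ a i j, fun k => by
    have := (hY k a).conj hev i j
    have e : (mD (derb W k) (th W K G a))ᴴ = mD (der W k) (tb W K G a) := (h.fD_eq k a).symm
    rw [e] at this
    exact this⟩
  have jE : ∀ i j, J W ev s u (EE W K G i j) := fun i j => by
    rw [h.E_eq, Matrix.mul_apply]
    refine J.sum fun k => J.rmul hu ?_ (jG k j)
    rw [of_apply]
    exact J.sum fun a => J.sum fun b => (jG b a).lmul hu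
      ((((jdb i a b k).add (jd k b i a)).sub
        (J.sum fun p => (jτ i a p).lmul hu (jϑ k p b))).sub
        (J.sum fun q => (jθ a i q).rmul hu (jτ' k b q)))
  have hE : OM ev s (EE W K G) := fun i j => (jE i j).1
  have hZ : ∀ i, OM ev u (ZZ W K G i) := fun i => by
    have h1 : OM ev u (mD (der W i) (EE W K G)) := fun p q => (jE p q).2 i
    refine ((h1.sub (((hθ i).mul hE).mono hu)).add ((hE.mul (hθ i)).mono hu)).add ?_
    refine OM.sum fun a => OM.sum fun b => OM.lsmul (hG b a) (OM.sum fun p => ?_)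
    refine OM.lsmul ?_ (hY b p)
    rw [h.th_sub]
    exact Ord.sum fun j => (ht.t0 a i j).lmul (hG j p)
  refine ⟨(Ord.pair hK hG hZ hϑ).add ?_, (hK.lmul (hE.conj hev)).trace⟩
  rw [mul_comm]
  exact Ord.pair hK hG hθ fun j =>
    ((hZ j).conj hev).add ((OM.cm (hE.conj hev) hϑ j).mono hu)

end Vale.Agent.P253W.FP.C3r
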