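import Vale.Agent.P253W.FP.C3.Alg

/-!
# P253W, block FP, row C3: time derivatives
-/

set_option linter.all false

open Matrix Finset Filter Set Metric
open scoped ComplexOrder ComplexConjugate ContDiff Topology

noncomputable section

namespace Vale.Agent.P253W.FP.C3r

open Vale.Agent.P272.K Vale.Agent.P272.K.C3

variable {n : ℕ}

/-- entrywise derivative -/
def HD (M : ℝ → Mt n ℂ) (M' : Mt n ℂ) (t : ℝ) : Prop :=
  ∀ i j, HasDerivAt (fun s => M s i j) (M' i j) t

variable {M N K G : ℝ → Mt n ℂ} {M' N' K' : Mt n ℂ} {t : ℝ}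

lemma HD.mul (hM : HD M M' t) (hN : HD N N' t) :
    HD (fun s => M s * N s) (M' * N t + M t * N') t := fun i j => by
  simp only [Matrix.mul_apply, Matrix.add_apply, ← Finset.sum_add_distrib]
  exact HasDerivAt.fun_sum fun k _ => (hM i k).mul (hN k j)

lemma HD.conj (hM : HD M M' t) : HD (fun s => (M s)ᴴ) M'ᴴ t := fun i j =>
  Complex.conjCLE.toContinuousLinearMap.hasFDerivAt.comp_hasDerivAt t (hM j i)

lemma HD.trace (hM : HD M M' t) : HasDerivAt (fun s => (M s).trace) M'.trace t :=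
  HasDerivAt.fun_sum fun k _ => hM k k

lemma HD.inv (hK : HD K K' t) (h0 : (K t).det ≠ 0) :
    HD (fun s => (K s)⁻¹) (-((K t)⁻¹ * K' * (K t)⁻¹)) t := by
  have hc : ContinuousAt K t :=
    continuousAt_pi.2 fun i => continuousAt_pi.2 fun j => (hK i j).continuousAt
  have hd : ∀ᶠ s in 𝓝 t, (K s).det ≠ 0 :=
    ((continuous_id.matrix_det.continuousAt (x := K t)).comp hc).eventually_ne h0
  have hi : ContinuousAt (fun s => (K s)⁻¹) t := by
    refine (continuousAt_matrix_inv (K t) ?_).comp hc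
    rw [Ring.inverse_eq_inv']
    exact continuousAt_inv₀ h0
  have hs : Tendsto (fun s => Matrix.of fun i j => slope (fun s => K s i j) t s) (𝓝[≠] t) (𝓝 K') :=
    tendsto_pi_nhds.2 fun i => tendsto_pi_nhds.2 fun j => hasDerivAt_iff_tendsto_slope.1 (hK i j)
  have h1 := (((hi.tendsto.mono_left nhdsWithin_le_nhds).mul hs).mul_const (K t)⁻¹).neg
  intro i j
  rw [hasDerivAt_iff_tendsto_slope]
  refine (tendsto_pi_nhds.1 (tendsto_pi_nhds.1 h1 i) j).congr' ?_
  filter_upwards [hd.filter_mono nhdsWithin_le_nhds] with s hs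
  have e1 : (Matrix.of fun i j => slope (fun s => K s i j) t s) = (s - t)⁻¹ • (K s - K t) := by
    ext i j
    simp [slope]
  have e2 : -((K s)⁻¹ * (K s - K t) * (K t)⁻¹) = (K s)⁻¹ - (K t)⁻¹ := by
    rw [Matrix.mul_sub, Matrix.sub_mul, Matrix.nonsing_inv_mul _ (isUnit_iff_ne_zero.2 hs),
      Matrix.mul_assoc, Matrix.mul_nonsing_inv _ (isUnit_iff_ne_zero.2 h0)]
    simp
  rw [e1, Matrix.mul_smul, Matrix.smul_mul, ← smul_neg, e2]
  simp [slope]

lemma hd_pair {p : Mt n ℂ} {M N : ℝ → Fin n → Mt n ℂ} {M' N' : Fin n → Mt n ℂ}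
    (hK : HD K (K t * p) t) (hG : HD G (-(p * G t)) t) (hM : ∀ i, HD (fun s => M s i) (M' i) t)
    (hN : ∀ i, HD (fun s => N s i) (N' i) t) :
    HasDerivAt (fun s => pair (G s) (K s) (M s) (N s)) (pair (G t) (K t) M' (N t) +
      pair (G t) (K t) (M t) fun j => N' j + cm p (N t) j) t := by
  have h0 := HasDerivAt.fun_sum (u := Finset.univ) fun i _ => HasDerivAt.fun_sum
    (u := Finset.univ) fun j _ =>
    (hG j i).mul (((hG.mul (hM i)).mul hK).mul (hN j)).trace
  simp only [pair_apply]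
  refine h0.congr_deriv (Eq.symm ?_)
  clear h0 hK hG hM hN
  generalize G t = G
  generalize K t = K
  generalize M t = M
  generalize N t = N
  have h1 : ∀ i j, (-(p * G)) j i * (G * M i * K * N j).trace + G j i *
      (((-(p * G) * M i + G * M' i) * K + G * M i * (K * p)) * N j + G * M i * K * N' j).trace =
      -(∑ q, p j q * G q i) * (G * M i * K * N j).trace
      + G j i * (G * M i * K * (N' j + (-(N j * p) + p * N j))).trace
      + G j i * (G * M' i * K * N j).trace := by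
    intro i j
    have h3 : ((-(p * G) * M i + G * M' i) * K + G * M i * (K * p)) * N j
        + G * M i * K * N' j = -(p * (G * M i * K * N j)) + G * M' i * K * N j
        + G * M i * K * (N' j + p * N j) := by noncomm_ring
    have h3' : G * M i * K * (N' j + (-(N j * p) + p * N j)) =
        G * M i * K * (N' j + p * N j) - (G * M i * K * N j) * p := by noncomm_ring
    rw [h3, h3', Matrix.trace_add, Matrix.trace_add, Matrix.trace_sub, Matrix.trace_neg,
      Matrix.trace_mul_comm p, Matrix.neg_apply, Matrix.mul_apply]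
    ring
  have h5 : ∑ i, ∑ j, -(∑ q, p j q * G q i) * (G * M i * K * N j).trace =
      -∑ i, ∑ j, G j i * (G * M i * K * (∑ q, p q j • N q)).trace := by
    simp only [Matrix.mul_sum, Matrix.trace_sum, Finset.mul_sum, Finset.sum_mul,
      Matrix.mul_smul, Matrix.trace_smul, smul_eq_mul, neg_mul,
      Finset.sum_neg_distrib, neg_inj]
    refine Finset.sum_congr rfl fun i _ => ?_
    calc ∑ j, ∑ q, p j q * G q i * (G * M i * K * N j).trace
        = ∑ q, ∑ j, p j q * G q i * (G * M i * K * N j).trace := Finset.sum_comm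
      _ = _ := Finset.sum_congr rfl fun i _ => Finset.sum_congr rfl fun j _ => by ring
  simp only [h1, Finset.sum_add_distrib, h5, cm, ← add_sub_assoc, Matrix.mul_sub, Matrix.trace_sub,
    mul_sub, Finset.sum_sub_distrib]
  ring

/-- `|θ|²` in terms of the metric and its first derivatives -/
def Sf (K : Mt n ℂ) (D : Fin n → Mt n ℂ) : ℂ :=
  pair K⁻¹ K (fun i => D i * K⁻¹) fun j => (D j * K⁻¹)ᴴ

lemma hd_Sf {D : ℝ → Fin n → Mt n ℂ} {D' : Fin n → Mt n ℂ} (hK : HD K K' t) (h0 : (K t).det ≠ 0)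
    (hD : ∀ i, HD (fun s => D s i) (D' i) t) : HasDerivAt (fun s => Sf (K s) (D s))
    (pair (K t)⁻¹ (K t) (fun i => D' i * (K t)⁻¹ - D t i * (K t)⁻¹ * (K' * (K t)⁻¹))
      (fun j => (D t j * (K t)⁻¹)ᴴ) + pair (K t)⁻¹ (K t) (fun i => D t i * (K t)⁻¹) fun j =>
      (D' j * (K t)⁻¹ - D t j * (K t)⁻¹ * (K' * (K t)⁻¹))ᴴ +
        cm ((K t)⁻¹ * K') (fun j => (D t j * (K t)⁻¹)ᴴ) j) t := by
  have h1 : ∀ i, HD (fun s => D s i * (K s)⁻¹)
      (D' i * (K t)⁻¹ - D t i * (K t)⁻¹ * (K' * (K t)⁻¹)) t := fun i => by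
    convert (hD i).mul (hK.inv h0) using 1
    noncomm_ring
  refine hd_pair (G := fun s => (K s)⁻¹) ?_ (hK.inv h0) h1 fun i => (h1 i).conj
  rwa [← Matrix.mul_assoc, Matrix.mul_nonsing_inv _ (isUnit_iff_ne_zero.2 h0), Matrix.one_mul]

lemma cont_Sf {X : Type*} [TopologicalSpace X] {S : Set X} {K : X → Mt n ℂ}
    {D : X → Fin n → Mt n ℂ} (hK : ∀ i j, ContinuousOn (fun x => K x i j) S)
    (h0 : ∀ x ∈ S, (K x).det ≠ 0) (hD : ∀ a i j, ContinuousOn (fun x => D x a i j) S) :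
    ContinuousOn (fun x => Sf (K x) (D x)) S := by
  rw [continuousOn_iff_continuous_restrict]
  have h1 : Continuous fun x : S => K x :=
    continuous_matrix fun i j => continuousOn_iff_continuous_restrict.1 (hK i j)
  have h2 : ∀ a, Continuous fun x : S => D x a := fun a =>
    continuous_matrix fun i j => continuousOn_iff_continuous_restrict.1 (hD a i j)
  have h3 : Continuous fun x : S => (K x)⁻¹ := continuous_iff_continuousAt.2 fun x => by
    refine (continuousAt_matrix_inv (K x) ?_).comp (f := fun x : S => K x) h1.continuousAt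
    rw [Ring.inverse_eq_inv']
    exact continuousAt_inv₀ (h0 x x.2)
  change Continuous fun x : S => Sf (K x) (D x)
  simp only [Sf, pair_apply]
  exact continuous_finset_sum _ fun i _ => continuous_finset_sum _ fun j _ =>
    (h3.matrix_elem j i).mul (((h3.matrix_mul ((h2 i).matrix_mul h3)).matrix_mul h1).matrix_mul
      ((h2 j).matrix_mul h3).matrix_conjTranspose).matrix_trace

section swap

variable {E : Type*} [NormedAddCommGroup E] [NormedSpace ℝ E] {F : ℝ × E → ℂ} {z : E}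

lemma hasFDerivAt_slice (s : ℝ) (z : E) :
    HasFDerivAt (fun y : E => (s, y)) (ContinuousLinearMap.inr ℝ ℝ E) z :=
  hasFDerivAt_prodMk_right s z

lemma swap_fderiv (hF : ContDiffAt ℝ 2 F (t, z)) {g : E → ℂ}
    (hg : ∀ᶠ y in 𝓝 z, HasDerivAt (fun s => F (s, y)) (g y) t) (v : E) :
    HasDerivAt (fun s => fderiv ℝ (fun y => F (s, y)) z v) (fderiv ℝ g z v) t := by
  have h1 : ∀ᶠ q in 𝓝 (t, z), DifferentiableAt ℝ F q :=
    (hF.eventually (by simp)).mono fun q hq => hq.differentiableAt (by simp)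
  have h2 : HasFDerivAt (fderiv ℝ F) (fderiv ℝ (fderiv ℝ F) (t, z)) (t, z) :=
    ((hF.fderiv_right (m := 1) (by norm_num)).differentiableAt (by norm_num)).hasFDerivAt
  have c1 : HasDerivAt (fun s : ℝ => (s, z)) ((1 : ℝ), (0 : E)) t :=
    (hasDerivAt_id t).prodMk (hasDerivAt_const t z)
  have h3 : (fun s => fderiv ℝ (fun y => F (s, y)) z v) =ᶠ[𝓝 t]
      fun s => fderiv ℝ F (s, z) (0, v) := by
    filter_upwards [c1.continuousAt.eventually h1] with s hs
    have : HasFDerivAt (fun y => F (s, y)) _ z := hs.hasFDerivAt.comp z (hasFDerivAt_slice s z)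
    rw [this.fderiv]
    simp
  have h4 : g =ᶠ[𝓝 z] fun y => fderiv ℝ F (t, y) (1, 0) := by
    filter_upwards [hg, (hasFDerivAt_slice t z).continuousAt.eventually h1] with y hy hy'
    exact hy.unique (hy'.hasFDerivAt.comp_hasDerivAt t
      ((hasDerivAt_id t).prodMk (hasDerivAt_const t y)))
  have h5 : HasFDerivAt (fun y => fderiv ℝ F (t, y) (1, 0)) _ z :=
    (h2.comp z (hasFDerivAt_slice t z)).clm_apply (hasFDerivAt_const ((1 : ℝ), (0 : E)) z)
  have h6 : fderiv ℝ g z v = fderiv ℝ (fderiv ℝ F) (t, z) (1, 0) (0, v) := by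
    rw [h4.fderiv_eq, (hF.isSymmSndFDerivAt (by simp)).eq, h5.fderiv]
    simp
  rw [h6]
  refine HasDerivAt.congr_of_eventuallyEq ?_ h3
  have h7 : HasDerivAt (fun s => fderiv ℝ F (s, z)) (fderiv ℝ (fderiv ℝ F) (t, z) (1, 0)) t :=
    h2.comp_hasDerivAt t c1
  exact (ContinuousLinearMap.apply ℝ ℂ ((0 : ℝ), v)).hasFDerivAt.comp_hasDerivAt t h7

lemma cont_fderiv {T : ℝ} (hT : 0 < T) {U : Set E} (hU : IsOpen U)
    (hF : ContDiffOn ℝ ∞ F (Icc 0 T ×ˢ U)) (v : E) :
    ContinuousOn (fun q : ℝ × E => fderiv ℝ (fun y => F (q.1, y)) q.2 v) (Icc 0 T ×ˢ U) := by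
  have h1 := hF.continuousOn_fderivWithin ((uniqueDiffOn_Icc hT).prod hU.uniqueDiffOn) (by simp)
  refine (h1.clm_apply (continuousOn_const (c := ((0 : ℝ), v)))).congr fun q hq => ?_
  have h2 : HasFDerivAt (fun y => F (q.1, y)) _ q.2 :=
    ((hF.differentiableOn (by simp) q hq).hasFDerivWithinAt.comp q.2
    (hasFDerivAt_slice q.1 q.2).hasFDerivWithinAt (s := U)
    fun y hy => Set.mk_mem_prod hq.1 hy).hasFDerivAt (hU.mem_nhds hq.2)
  beta_reduce
  rw [h2.fderiv]
  simp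

end swap

lemma swap_dz {F : ℝ × Cm n → ℂ} {z : Cm n} (hF : ContDiffAt ℝ 2 F (t, z)) {g : Cm n → ℂ}
    (hg : ∀ᶠ y in 𝓝 z, HasDerivAt (fun s => F (s, y)) (g y) t) (i : Fin n) :
    HasDerivAt (fun s => dz i (fun y => F (s, y)) z) (dz i g z) t :=
  ((swap_fderiv hF hg _).sub ((swap_fderiv hF hg _).const_mul _)).div_const _

lemma cont_dz {F : ℝ × Cm n → ℂ} {T : ℝ} (hT : 0 < T) {U : Set (Cm n)} (hU : IsOpen U)
    (hF : ContDiffOn ℝ ∞ F (Icc 0 T ×ˢ U)) (i : Fin n) :
    ContinuousOn (fun q : ℝ × Cm n => dz i (fun y => F (q.1, y)) q.2) (Icc 0 T ×ˢ U) :=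
  ((cont_fderiv hT hU hF _).sub (continuousOn_const.mul (cont_fderiv hT hU hF _))).div_const _

section bounds

variable {f : Cm n → ℂ} {z : Cm n} {c : ℝ}

lemma two_le {a b : ℂ} (ha : ‖a‖ ≤ c) (hb : ‖b‖ ≤ c) :
    ‖(1 / 2 : ℂ) * (a - Complex.I * b)‖ ≤ c ∧ ‖(1 / 2 : ℂ) * (a + Complex.I * b)‖ ≤ c := by
  have h1 := norm_sub_le a (Complex.I * b)
  have h2 := norm_add_le a (Complex.I * b)
  rw [norm_mul, Complex.norm_I, one_mul] at h1 h2
  have h3 : ‖(1 / 2 : ℂ)‖ = 1 / 2 := by simp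
  simp only [norm_mul, h3]
  constructor <;> linarith

lemma dz_le (i : Fin n) (h : ∀ v, ‖v‖ = 1 → ‖fderiv ℝ f z v‖ ≤ c) :
    ‖dz i f z‖ ≤ c ∧ ‖dzb i f z‖ ≤ c := by
  rw [INT.dz_eq, INT.dzb_eq]
  exact two_le (h _ (by simp [Pi.norm_single])) (h _ (by simp [Pi.norm_single]))

lemma dz_le1 (i : Fin n) (h : ‖iteratedFDeriv ℝ 1 f z‖ ≤ c) : ‖dz i f z‖ ≤ c ∧ ‖dzb i f z‖ ≤ c :=
  dz_le i fun v hv => by
    rw [← norm_iteratedFDeriv_fderiv, norm_iteratedFDeriv_zero] at h
    simpa [hv] using (fderiv ℝ f z).le_of_opNorm_le h v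

lemma dz_le2 (i k : Fin n) (hf : ContDiffAt ℝ 2 f z) (h : ‖iteratedFDeriv ℝ 2 f z‖ ≤ c) :
    ‖dz i (dzb k f) z‖ ≤ c ∧ ‖dzb i (dzb k f) z‖ ≤ c :=
  dz_le i fun v hv => by
    rw [← norm_iteratedFDeriv_fderiv, ← norm_iteratedFDeriv_fderiv, norm_iteratedFDeriv_zero] at h
    have h1 : ‖fderiv ℝ (fderiv ℝ f) z v‖ ≤ c := by
      simpa [hv] using (fderiv ℝ (fderiv ℝ f) z).le_of_opNorm_le h v
    rw [INT.fderiv_dzb hf]
    exact (two_le (by simpa [Pi.norm_single] using ContinuousLinearMap.le_of_opNorm_le _ h1 (Pi.single k 1))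
      (by simpa [Pi.norm_single] using
        ContinuousLinearMap.le_of_opNorm_le _ h1 (Pi.single k Complex.I))).2

end bounds

end Vale.Agent.P253W.FP.C3r
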