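import Vale.Agent.P253W.FP.C3.Est
import Vale.Agent.P253W.FP.C3.Time
import Vale.Agent.P272.K.C3.Main

/-!
# P253W, block FP, row C3: the product of the rings of smooth functions over all data
-/

set_option linter.all false

open Matrix Finset Filter Set Metric TopologicalSpace
open scoped ComplexOrder ComplexConjugate ContDiff Topology

noncomputable section

namespace Vale.Agent.P253W.FP.C3r

open Vale.Agent.P272.K Vale.Agent.P272.K.C3 Vale.Agent.P272.K.P1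

/-- the hypotheses on the flow -/
structure Hyp {n : ℕ} (R lam Lam C₀ : ℝ) (p : Cm n) (T : ℝ) (K : ℝ → Cm n → Mt n ℂ)
    (τ : Fin n → Fin n → Fin n → Cm n → ℂ) : Prop where
  sm : ∀ i j, ContDiffOn ℝ ∞ (fun q : ℝ × Cm n => K q.1 q.2 i j) (Icc 0 T ×ˢ ball p R)
  bd : ∀ t ∈ Icc 0 T, ∀ z ∈ ball p R, (K t z - (lam : ℂ) • (1 : Mt n ℂ)).PosSemidef ∧
    ((Lam : ℂ) • (1 : Mt n ℂ) - K t z).PosSemidef
  fl : ∀ t ∈ Ioo 0 T, ∀ z ∈ ball p R, ∀ i j, HasDerivAt (fun s => K s z i j)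
    (cHess (fun y => Real.log (K t y).det.re) z i j) t
  ta : ∀ t ∈ Icc 0 T, ∀ z ∈ ball p R, ∀ a i j,
    dz a (fun y => K t y i j) z - dz i (fun y => K t y a j) z = τ a i j z
  tb : ∀ a i j, ∀ k ≤ 2, ∀ z ∈ ball p R, ‖iteratedFDeriv ℝ k (τ a i j) z‖ ≤ C₀
  lam : 0 < lam

variable {n : ℕ} {R lam Lam C₀ : ℝ}

namespace Hyp

variable {p : Cm n} {T : ℝ} {K : ℝ → Cm n → Mt n ℂ} {τ : Fin n → Fin n → Fin n → Cm n → ℂ}
  (h : Hyp R lam Lam C₀ p T K τ) {t : ℝ} {z : Cm n}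
include h

lemma pd (ht : t ∈ Icc 0 T) (hz : z ∈ ball p R) : (K t z).PosDef := by
  have h2 : ((lam : ℂ) • (1 : Mt n ℂ)).PosDef := Matrix.PosDef.one.smul (by exact_mod_cast h.lam)
  have h3 := h2.add_posSemidef (h.bd t ht z hz).1
  rwa [add_sub_cancel] at h3

lemma det_ne (ht : t ∈ Icc 0 T) (hz : z ∈ ball p R) : (K t z).det ≠ 0 := (h.pd ht hz).det_pos.ne'

lemma eb {β : ℝ} (h1 : Lam ≤ β) (h2 : n * (1 / lam) ≤ β) (ht : t ∈ Icc 0 T) (hz : z ∈ ball p R) :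
    EB (K t z) β ∧ EB (K t z)⁻¹ β := by
  obtain ⟨B, Bi, hs⟩ := exists_Sq (h.pd ht hz)
  obtain ⟨a, b⟩ := entries_le h.lam (h.bd t ht z hz).1 (h.bd t ht z hz).2 hs
  exact ⟨a.mono h1, b.mono h2⟩

lemma at2 (ht : t ∈ Ioo 0 T) (hz : z ∈ ball p R) (i j : Fin n) :
    ContDiffAt ℝ ∞ (fun q : ℝ × Cm n => K q.1 q.2 i j) (t, z) :=
  (h.sm i j).contDiffAt (prod_mem_nhds (Icc_mem_nhds ht.1 ht.2) (isOpen_ball.mem_nhds hz))

lemma mc (ht : t ∈ Ioo 0 T) (hz : z ∈ ball p R) : C2.MC ∞ (K t) z := fun i j =>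
  (h.at2 ht hz i j).comp z (contDiffAt_const.prodMk contDiffAt_id)

lemma det_re (ht : t ∈ Icc 0 T) (hz : z ∈ ball p R) : ((K t z).det.re : ℂ) = (K t z).det := by
  have h2 := (RCLike.pos_iff (K := ℂ)).1 (h.pd ht hz).det_pos
  apply Complex.ext
  · simp
  · simpa using h2.2.symm

lemma det_re_pos (ht : t ∈ Icc 0 T) (hz : z ∈ ball p R) : 0 < (K t z).det.re :=
  ((RCLike.pos_iff (K := ℂ)).1 (h.pd ht hz).det_pos).1

lemma log_sm (ht : t ∈ Ioo 0 T) (hz : z ∈ ball p R) :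
    ContDiffAt ℝ ∞ (fun y => ((Real.log (K t y).det.re : ℝ) : ℂ)) z :=
  C2.contDiffAt_ofReal ((Complex.reCLM.contDiff.contDiffAt.comp z (h.mc ht hz).det).log
    (h.det_re_pos (Ioo_subset_Icc_self ht) hz).ne')

lemma dz_log (ht : t ∈ Ioo 0 T) (hz : z ∈ ball p R) (k : Fin n) :
    dz k (fun y => ((Real.log (K t y).det.re : ℝ) : ℂ)) z =
      ((K t z)⁻¹ * C2.DM k (K t) z).trace := by
  have ht' := Ioo_subset_Icc_self ht
  have h2 : ContDiffAt ℝ ∞ (fun y => (K t y).det.re) z :=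
    Complex.reCLM.contDiff.contDiffAt.comp z (h.mc ht hz).det
  have h3 : (fun y => (((K t y).det.re : ℝ) : ℂ)) =ᶠ[𝓝 z] fun y => (K t y).det := by
    filter_upwards [isOpen_ball.mem_nhds hz] with y hy using h.det_re ht' hy
  rw [C2.dz_comp_real k (Real.hasDerivAt_log (h.det_re_pos ht' hz).ne')
    (h2.differentiableAt (by simp)), C2.dz_congr k h3,
    C2.dz_det ((h.mc ht hz).md (by simp)) (h.det_ne ht' hz)]
  rw [← mul_assoc, Complex.ofReal_inv, h.det_re ht' hz, inv_mul_cancel₀ (h.det_ne ht' hz), one_mul]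

end Hyp

/-- all data, with a time and a point -/
structure Pt (n : ℕ) (R lam Lam C₀ : ℝ) where
  p : Cm n
  T : ℝ
  K : ℝ → Cm n → Mt n ℂ
  τ : Fin n → Fin n → Fin n → Cm n → ℂ
  h : Hyp R lam Lam C₀ p T K τ
  t : ℝ
  ht : t ∈ Ioo 0 T
  z : Cm n
  hz : z ∈ ball p R

/-- the ball -/
def Pt.O (o : Pt n R lam Lam C₀) : Opens (Cm n) := ⟨ball o.p R, isOpen_ball⟩

variable (n R lam Lam C₀)

/-- the ring -/
abbrev Rg : Type := ∀ o : Pt n R lam Lam C₀, Sm o.O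

/-- the derivations -/
def WP : WAlg n (Rg n R lam Lam C₀) where
  d i a o := Sm.d i (a o)
  db i a o := Sm.db i (a o)
  d_add i a b := funext fun o => (Sm.W o.O).d_add i _ _
  d_mul i a b := funext fun o => (Sm.W o.O).d_mul i _ _
  d_star i a := funext fun o => (Sm.W o.O).d_star i _
  d_d i j a := funext fun o => (Sm.W o.O).d_d i j _
  d_db i j a := funext fun o => (Sm.W o.O).d_db i j _

/-- the metric -/
def KK : Mt n (Rg n R lam Lam C₀) := Matrix.of fun i j o =>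
  Sm.mk (fun y => o.K o.t y i j) fun x hx => o.h.mc o.ht hx i j

/-- the inverse metric -/
def GG : Mt n (Rg n R lam Lam C₀) := Matrix.of fun i j o =>
  Sm.mk (fun y => (o.K o.t y)⁻¹ i j) fun x hx =>
    (o.h.mc o.ht hx).inv (o.h.det_ne (Ioo_subset_Icc_self o.ht) hx) i j

/-- the logarithm of the determinant -/
def ff : Rg n R lam Lam C₀ := fun o =>
  Sm.mk (fun y => ((Real.log (o.K o.t y).det.re : ℝ) : ℂ)) fun x hx => o.h.log_sm o.ht hx

variable {n R lam Lam C₀}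

/-- evaluation -/
def evx (o : Pt n R lam Lam C₀) (x : o.O) : Rg n R lam Lam C₀ →+* ℂ :=
  (Sm.ev x : Sm o.O →+* ℂ).comp (Pi.evalRingHom _ o)

variable {o : Pt n R lam Lam C₀} (x : o.O)

lemma evx_apply (a : Rg n R lam Lam C₀) : evx o x a = Sm.ev x (a o) := rfl

lemma evx_star (a : Rg n R lam Lam C₀) : evx o x (star a) = star (evx o x a) :=
  map_star (Sm.ev x) (a o)

lemma evx_ext {a b : Rg n R lam Lam C₀} (h : ∀ o x, evx o x a = evx o x b) : a = b :=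
  funext fun o => Sm.ev_ext (h o)

lemma evx_extM {M N : Mt n (Rg n R lam Lam C₀)}
    (h : ∀ o x, M.map (evx o x) = N.map (evx o x)) : M = N :=
  Matrix.ext fun i j => evx_ext fun o x => congrFun (congrFun (h o x) i) j

lemma fn_eq {a : Rg n R lam Lam C₀} {g : Cm n → ℂ} (h : ∀ y : o.O, evx o y a = g y) :
    Sm.fn (a o) =ᶠ[𝓝 (x : Cm n)] g := by
  filter_upwards [o.O.isOpen.mem_nhds x.2] with y hy
  rw [← h ⟨y, hy⟩, evx_apply, Sm.ev_apply]

lemma ev_d {a : Rg n R lam Lam C₀} {g : Cm n → ℂ} (h : ∀ y : o.O, evx o y a = g y) (k : Fin n) :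
    evx o x ((WP n R lam Lam C₀).d k a) = dz k g x :=
  (Sm.ev_d x k (a o)).trans (INT.dz_congr (fn_eq x h))

lemma ev_db {a : Rg n R lam Lam C₀} {g : Cm n → ℂ} (h : ∀ y : o.O, evx o y a = g y) (k : Fin n) :
    evx o x ((WP n R lam Lam C₀).db k a) = dzb k g x :=
  (Sm.ev_db x k (a o)).trans (INT.dzb_congr (fn_eq x h))

lemma sm_of {a : Rg n R lam Lam C₀} {g : Cm n → ℂ} (h : ∀ y : o.O, evx o y a = g y) :
    ContDiffAt ℝ ∞ g x :=
  (Sm.fn_smooth (a o) x.2).congr_of_eventuallyEq (fn_eq x h).symm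

lemma ev_KK : (KK n R lam Lam C₀).map (evx o x) = o.K o.t x :=
  Matrix.ext fun i j => Sm.ev_mk (fun y => o.K o.t y i j) (fun x hx => o.h.mc o.ht hx i j) x

lemma ev_GG : (GG n R lam Lam C₀).map (evx o x) = (o.K o.t x)⁻¹ :=
  Matrix.ext fun i j => Sm.ev_mk (fun y => (o.K o.t y)⁻¹ i j) (fun x hx =>
    (o.h.mc o.ht hx).inv (o.h.det_ne (Ioo_subset_Icc_self o.ht) hx) i j) x

lemma unit : IsUnit (o.K o.t x).det :=
  isUnit_iff_ne_zero.2 (o.h.det_ne (Ioo_subset_Icc_self o.ht) x.2)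

lemma hs : HS (KK n R lam Lam C₀) (GG n R lam Lam C₀) where
  KG := evx_extM fun o x => by
    rw [Matrix.map_mul, ev_KK, ev_GG, Matrix.mul_nonsing_inv _ (unit x),
      Matrix.map_one _ (map_zero _) (map_one _)]
  GK := evx_extM fun o x => by
    rw [Matrix.map_mul, ev_KK, ev_GG, Matrix.nonsing_inv_mul _ (unit x),
      Matrix.map_one _ (map_zero _) (map_one _)]
  hK := evx_extM fun o x => by
    rw [e_conj (evx_star x), ev_KK, (o.h.pd (Ioo_subset_Icc_self o.ht) x.2).isHermitian.eq]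

lemma ev_D {M : Mt n (Rg n R lam Lam C₀)} {g : Cm n → Mt n ℂ}
    (h : ∀ y : o.O, M.map (evx o y) = g y) (k : Fin n) :
    (mD (der (WP n R lam Lam C₀) k) M).map (evx o x) = C2.DM k g x :=
  Matrix.ext fun i j => ev_d x (g := fun y => g y i j) (fun y => congrFun (congrFun (h y) i) j) k

lemma ev_th (a : Fin n) : (th (WP n R lam Lam C₀) (KK n R lam Lam C₀) (GG n R lam Lam C₀) a).map
    (evx o x) = C2.DM a (o.K o.t) x * (o.K o.t x)⁻¹ := by
  rw [th, Matrix.map_mul, ev_GG, ev_D x ev_KK]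

lemma ev_SS : evx o x (SS (WP n R lam Lam C₀) (KK n R lam Lam C₀) (GG n R lam Lam C₀)) =
    Sf (o.K o.t x) fun a => C2.DM a (o.K o.t) x := by
  simp only [SS, e_pair, hs.tb_eq, e_conj (evx_star x), ev_th, ev_KK, ev_GG, Sf]

lemma ev_ric : (ric (WP n R lam Lam C₀) (KK n R lam Lam C₀) (GG n R lam Lam C₀)).map (evx o x) =
    cHess (fun y => Real.log (o.K o.t y).det.re) x := by
  ext i j
  have h0 : ∀ (o : Pt n R lam Lam C₀) (y : o.O), evx o y (ff n R lam Lam C₀) =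
    (fun y => ((Real.log (o.K o.t y).det.re : ℝ) : ℂ)) y := fun o y =>
      Sm.ev_mk (fun y => ((Real.log (o.K o.t y).det.re : ℝ) : ℂ)) (fun x hx => o.h.log_sm o.ht hx) y
  have h1 : (th (WP n R lam Lam C₀) (KK n R lam Lam C₀) (GG n R lam Lam C₀) i).trace =
      (WP n R lam Lam C₀).d i (ff n R lam Lam C₀) := evx_ext fun o y => by
    rw [e_trace, ev_th, ev_d y (g := fun y => ((Real.log (o.K o.t y).det.re : ℝ) : ℂ)) (h0 o),
      o.h.dz_log o.ht y.2, Matrix.trace_mul_comm]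
  rw [Matrix.map_apply, ric, of_apply, ← D_trace, h1, derb_apply, ← WAlg.d_db]
  exact ev_d x (fun y => ev_db y (g := fun y => ((Real.log (o.K o.t y).det.re : ℝ) : ℂ)) (h0 o) j) i

lemma ev_cm (t : Mt n (Rg n R lam Lam C₀)) (N : Fin n → Mt n (Rg n R lam Lam C₀)) (j : Fin n) :
    (cm t N j).map (evx o x) = cm (t.map (evx o x)) (fun j => (N j).map (evx o x)) j := by
  ext a b
  simp [cm, Matrix.mul_apply, Matrix.sum_apply]

lemma ev_tau (a i j : Fin n) :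
    evx o x (tau (WP n R lam Lam C₀) (KK n R lam Lam C₀) a i j) = o.τ a i j x := by
  have h1 : ∀ i j (y : o.O), evx o y (KK n R lam Lam C₀ i j) = o.K o.t y i j :=
    fun i j y => congrFun (congrFun (ev_KK y) i) j
  rw [tau, map_sub, ev_d x (g := fun y => o.K o.t y i j) (h1 i j),
    ev_d x (g := fun y => o.K o.t y a j) (h1 a j)]
  exact o.h.ta _ (Ioo_subset_Icc_self o.ht) _ x.2 a i j

/-- evaluation at the marked point -/
def ev0 (o : Pt n R lam Lam C₀) : Rg n R lam Lam C₀ →+* ℂ := evx o ⟨o.z, o.hz⟩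

lemma tb0 : TB (WP n R lam Lam C₀) ev0 (KK n R lam Lam C₀) := by
  have h0 : ∀ {a : Rg n R lam Lam C₀}, (∀ o, ‖ev0 o a‖ ≤ C₀) → Ord ev0 1 a := fun h =>
    ⟨|C₀|, abs_nonneg _, fun o => by simpa using (h o).trans (le_abs_self _)⟩
  have h2 : ∀ (o : Pt n R lam Lam C₀) a i j, ContDiffAt ℝ 2 (o.τ a i j) o.z := fun o a i j =>
    (sm_of ⟨o.z, o.hz⟩ fun y => ev_tau y a i j).of_le (WithTop.coe_le_coe.2 le_top)
  refine ⟨fun a i j => h0 fun o => ?_, fun a i j k => h0 fun o => ?_, fun a i j k => h0 fun o => ?_,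
    fun a i j k l => h0 fun o => ?_, fun a i j k l => h0 fun o => ?_⟩
  · rw [ev0, ev_tau, ← norm_iteratedFDeriv_zero (𝕜 := ℝ)]
    exact o.h.tb a i j 0 (by norm_num) _ o.hz
  · rw [ev0, ev_d _ fun y => ev_tau y a i j]
    exact (dz_le1 k (o.h.tb a i j 1 (by norm_num) _ o.hz)).1
  · rw [ev0, ev_db _ fun y => ev_tau y a i j]
    exact (dz_le1 k (o.h.tb a i j 1 (by norm_num) _ o.hz)).2
  · rw [ev0, ev_d _ fun y => ev_db y (fun y => ev_tau y a i j) k]
    exact (dz_le2 l k (h2 o a i j) (o.h.tb a i j 2 le_rfl _ o.hz)).1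
  · rw [ev0, ev_db _ fun y => ev_db y (fun y => ev_tau y a i j) k]
    exact (dz_le2 l k (h2 o a i j) (o.h.tb a i j 2 le_rfl _ o.hz)).2

/-- the time derivative of `|θ|²` -/
lemma hd_S : HasDerivAt (fun s => Sf (o.K s x) fun a => C2.DM a (o.K s) x)
    (evx o x (Sd (WP n R lam Lam C₀) (KK n R lam Lam C₀) (GG n R lam Lam C₀))) o.t := by
  have h1 : ∀ i, HD (fun s => C2.DM i (o.K s) x)
      (C2.DM i (cHess fun y => Real.log (o.K o.t y).det.re) x) o.t := fun i a b =>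
    swap_dz (F := fun q : ℝ × Cm n => o.K q.1 q.2 a b)
      ((o.h.at2 o.ht x.2 a b).of_le (WithTop.coe_le_coe.2 le_top))
      (by filter_upwards [isOpen_ball.mem_nhds x.2] with y hy using o.h.fl _ o.ht y hy a b) i
  refine (hd_Sf (K := fun s => o.K s x) (o.h.fl _ o.ht x x.2) (unit x).ne_zero h1).congr_deriv ?_
  have h2 : ∀ i, (thd (WP n R lam Lam C₀) (KK n R lam Lam C₀) (GG n R lam Lam C₀) i).map (evx o x) =
      C2.DM i (cHess fun y => Real.log (o.K o.t y).det.re) x * (o.K o.t x)⁻¹ -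
      C2.DM i (o.K o.t) x * (o.K o.t x)⁻¹ *
        (cHess (fun y => Real.log (o.K o.t y).det.re) x * (o.K o.t x)⁻¹) := fun i => by
    rw [hs.thd_eq, Matrix.map_sub _ (map_sub _), Matrix.map_mul, Matrix.map_mul, Matrix.map_mul,
      ev_D x ev_ric, ev_th, ev_ric, ev_GG]
  simp only [Sd, map_add, e_pair, Matrix.map_add _ (map_add (evx o x)), ev_cm, hs.tb_eq,
    e_conj (evx_star x), h2, ev_th, ev_KK, ev_GG, Matrix.map_mul, ev_ric]

lemma ev_lap {a : Rg n R lam Lam C₀} {u : Cm n → ℝ} (h : ∀ y : o.O, evx o y a = (u y : ℂ)) :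
    evx o x (lap (WP n R lam Lam C₀) (GG n R lam Lam C₀) a) =
      ((o.K o.t x)⁻¹ * cHess u x).trace := by
  have h1 : ∀ j k, cHess u x j k = evx o x ((WP n R lam Lam C₀).d j ((WP n R lam Lam C₀).db k a)) :=
    fun j k => (ev_d x (fun y => ev_db y h k) j).symm
  rw [← ev_GG]
  simp only [lap, map_sum, map_mul, Matrix.trace, Matrix.diag_apply, Matrix.mul_apply, h1,
    Matrix.map_apply]
  exact Finset.sum_comm

end Vale.Agent.P253W.FP.C3r
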